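import Mathlib

/-!
# P209: definitions for symplectic ball packings
-/

open scoped ContDiff

namespace Vale.Agent.Lib.P209

/-- The standard symplectic form `ω₀ = ∑ dx_j ∧ dy_j` on `ℂ^n`, evaluated on two vectors. -/
def omega {n : ℕ} (u v : Fin n → ℂ) : ℝ :=
  ∑ j, ((u j).re * (v j).im - (u j).im * (v j).re)

/-- The closed ball `B^{2n}(R)` of capacity `R`. -/
def closedBall (n : ℕ) (R : ℝ) : Set (Fin n → ℂ) := {z | Real.pi * ∑ j, ‖z j‖ ^ 2 ≤ R}

/-- The open ball `Int B^{2n}(R)` of capacity `R`. -/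
def openBall (n : ℕ) (R : ℝ) : Set (Fin n → ℂ) := {z | Real.pi * ∑ j, ‖z j‖ ^ 2 < R}

/-- `φ` restricts to a symplectic embedding of some open neighbourhood `U` of `K`: it is smooth and
injective on `U` and its derivative preserves `ω₀` at every point of `U`. -/
def IsSympEmbOn {n : ℕ} (φ : (Fin n → ℂ) → (Fin n → ℂ)) (K : Set (Fin n → ℂ)) : Prop :=
  ∃ U : Set (Fin n → ℂ), IsOpen U ∧ K ⊆ U ∧ ContDiffOn ℝ ∞ φ U ∧ Set.InjOn φ U ∧
    ∀ z ∈ U, ∀ u v, omega (fderiv ℝ φ z u) (fderiv ℝ φ z v) = omega u v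

/-- There is a symplectic embedding of the disjoint union of the closed balls `B^{2n}(r i)` into
the open ball `Int B^{2n}(R)`. -/
def BallPacking (n k : ℕ) (r : Fin k → ℝ) (R : ℝ) : Prop :=
  ∃ φ : Fin k → (Fin n → ℂ) → (Fin n → ℂ),
    (∀ i, IsSympEmbOn (φ i) (closedBall n (r i))) ∧
    (∀ i, φ i '' closedBall n (r i) ⊆ openBall n R) ∧
    (∀ i j, i ≠ j → Disjoint (φ i '' closedBall n (r i)) (φ j '' closedBall n (r j)))

end Vale.Agent.Lib.P209
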