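import Mathlib

/-!
# P209: area preserving maps of the plane

* the squeeze `(x, y) ↦ (x / k'(y) + τ, k(y))` with `k(y) = y + β arctan (μ y)`, an area preserving
  diffeomorphism of the plane which moves a large disc into the slit plane and increases `|z|^2`
  by an arbitrarily small amount;
* the action-angle chart `w ↦ (π |w|^2, arg w / 2π)` on the slit plane and its inverse.
-/

open scoped ContDiff

namespace Vale.Agent.Lib.P209

/-- the standard area form on the complex line -/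
def om2 (u v : ℂ) : ℝ := u.re * v.im - u.im * v.re

lemma clm_apply_eq (L : ℂ →L[ℝ] ℝ) (u : ℂ) : L u = u.re * L 1 + u.im * L Complex.I := by
  have : u = u.re • (1 : ℂ) + u.im • Complex.I := by
    apply Complex.ext <;> simp
  calc L u = L (u.re • (1 : ℂ) + u.im • Complex.I) := by rw [← this]
    _ = u.re * L 1 + u.im * L Complex.I := by
      rw [map_add, map_smul, map_smul, smul_eq_mul, smul_eq_mul]

lemma symp2_of_re_im {F : ℂ → ℂ} {z : ℂ} {L₁ L₂ : ℂ →L[ℝ] ℝ}
    (h₁ : HasFDerivAt (fun w => (F w).re) L₁ z) (h₂ : HasFDerivAt (fun w => (F w).im) L₂ z)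
    (hdet : L₁ 1 * L₂ Complex.I - L₁ Complex.I * L₂ 1 = 1) :
    DifferentiableAt ℝ F z ∧ ∀ u v, om2 (fderiv ℝ F z u) (fderiv ℝ F z v) = om2 u v := by
  have h' : HasFDerivAt F (L₁.smulRight (1 : ℂ) + L₂.smulRight Complex.I) z := by
    have := (h₁.smul_const (1 : ℂ)).add (h₂.smul_const Complex.I)
    refine this.congr_of_eventuallyEq (Filter.Eventually.of_forall fun w => ?_)
    apply Complex.ext <;> simp
  refine ⟨h'.differentiableAt, fun u v => ?_⟩
  rw [h'.fderiv]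
  have e1 : ∀ u : ℂ, ((L₁.smulRight (1 : ℂ) + L₂.smulRight Complex.I) u).re = L₁ u := by
    intro u; simp
  have e2 : ∀ u : ℂ, ((L₁.smulRight (1 : ℂ) + L₂.smulRight Complex.I) u).im = L₂ u := by
    intro u; simp
  unfold om2
  rw [e1, e2, e1, e2, clm_apply_eq L₁ u, clm_apply_eq L₂ u, clm_apply_eq L₁ v, clm_apply_eq L₂ v]
  have : (u.re * L₁ 1 + u.im * L₁ Complex.I) * (v.re * L₂ 1 + v.im * L₂ Complex.I) -
      (u.re * L₂ 1 + u.im * L₂ Complex.I) * (v.re * L₁ 1 + v.im * L₁ Complex.I)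
      = (L₁ 1 * L₂ Complex.I - L₁ Complex.I * L₂ 1) * (u.re * v.im - u.im * v.re) := by ring
  rw [this, hdet, one_mul]

/-- `k(y) = y + β arctan(μ y)` -/
noncomputable def kf (β μ y : ℝ) : ℝ := y + β * Real.arctan (μ * y)

/-- `p(y) = 1 / k'(y)` -/
noncomputable def pf (β μ y : ℝ) : ℝ := (1 + (μ * y) ^ 2) / (1 + (μ * y) ^ 2 + β * μ)

/-- the squeeze map -/
noncomputable def squeeze (β μ τ : ℝ) (z : ℂ) : ℂ := ⟨z.re * pf β μ z.im + τ, kf β μ z.im⟩

lemma hasDerivAt_kf (β μ y : ℝ) :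
    HasDerivAt (kf β μ) (1 + β * (1 / (1 + (μ * y) ^ 2) * μ)) y := by
  unfold kf
  have h1 : HasDerivAt (fun y : ℝ => μ * y) μ y := by
    simpa using (hasDerivAt_id y).const_mul μ
  have h2 := (Real.hasDerivAt_arctan (μ * y)).comp y h1
  exact (hasDerivAt_id y).add (h2.const_mul β)

lemma den_pos {β μ : ℝ} (hβ : 0 ≤ β) (hμ : 0 ≤ μ) (y : ℝ) : 0 < 1 + (μ * y) ^ 2 + β * μ := by
  positivity

lemma contDiff_pf {β μ : ℝ} (hβ : 0 ≤ β) (hμ : 0 ≤ μ) : ContDiff ℝ ∞ (pf β μ) := by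
  unfold pf
  apply ContDiff.div
  · fun_prop
  · fun_prop
  · intro y; exact (den_pos hβ hμ y).ne'

lemma contDiff_kf (β μ : ℝ) : ContDiff ℝ ∞ (kf β μ) := by
  unfold kf
  have : ContDiff ℝ ∞ (fun y : ℝ => Real.arctan (μ * y)) :=
    Real.contDiff_arctan.comp (by fun_prop)
  fun_prop

lemma symp2_squeeze {β μ : ℝ} (hβ : 0 ≤ β) (hμ : 0 ≤ μ) (τ : ℝ) (z : ℂ) :
    DifferentiableAt ℝ (squeeze β μ τ) z ∧
      ∀ u v, om2 (fderiv ℝ (squeeze β μ τ) z u) (fderiv ℝ (squeeze β μ τ) z v) = om2 u v := by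
  have hp : HasDerivAt (pf β μ) (deriv (pf β μ) z.im) z.im :=
    ((contDiff_pf hβ hμ).differentiable (by simp) z.im).hasDerivAt
  have hre : HasFDerivAt (fun w : ℂ => w.re) Complex.reCLM z := Complex.reCLM.hasFDerivAt
  have him : HasFDerivAt (fun w : ℂ => w.im) Complex.imCLM z := Complex.imCLM.hasFDerivAt
  have h1 := (hre.mul (hp.comp_hasFDerivAt z him)).add_const τ
  have h2 := (hasDerivAt_kf β μ z.im).comp_hasFDerivAt z him
  refine symp2_of_re_im (F := squeeze β μ τ) h1 h2 ?_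
  have hd := den_pos hβ hμ z.im
  have hd' : 0 < 1 + (μ * z.im) ^ 2 := by positivity
  simp [pf]
  field_simp

lemma nsq_pos {w : ℂ} (hw : w ≠ 0) : 0 < w.re * w.re + w.im * w.im := by
  have := Complex.normSq_pos.mpr hw
  rwa [Complex.normSq_apply] at this

/-- a map into `ℂ` is smooth as soon as its real and imaginary parts are -/
lemma contDiffOn_mk {f g : ℂ → ℝ} {U : Set ℂ} (hf : ContDiffOn ℝ ∞ f U) (hg : ContDiffOn ℝ ∞ g U) :
    ContDiffOn ℝ ∞ (fun z => (⟨f z, g z⟩ : ℂ)) U := by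
  have h1 : ContDiffOn ℝ ∞ (fun z => f z • (1 : ℂ) + g z • Complex.I) U :=
    (hf.smul contDiffOn_const).add (hg.smul contDiffOn_const)
  refine h1.congr fun z _ => ?_
  apply Complex.ext <;> simp

lemma contDiff_re : ContDiff ℝ ∞ (fun z : ℂ => z.re) := Complex.reCLM.contDiff
lemma contDiff_im : ContDiff ℝ ∞ (fun z : ℂ => z.im) := Complex.imCLM.contDiff

lemma contDiffOn_squeeze {β μ : ℝ} (hβ : 0 ≤ β) (hμ : 0 ≤ μ) (τ : ℝ) (U : Set ℂ) :
    ContDiffOn ℝ ∞ (squeeze β μ τ) U := by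
  unfold squeeze
  apply contDiffOn_mk
  · exact ((contDiff_re.mul ((contDiff_pf hβ hμ).comp contDiff_im)).add contDiff_const).contDiffOn
  · exact ((contDiff_kf β μ).comp contDiff_im).contDiffOn

lemma strictMono_kf {β μ : ℝ} (hβ : 0 ≤ β) (hμ : 0 ≤ μ) : StrictMono (kf β μ) := by
  intro y y' h
  unfold kf
  have : Real.arctan (μ * y) ≤ Real.arctan (μ * y') :=
    Real.arctan_strictMono.monotone (mul_le_mul_of_nonneg_left h.le hμ)
  have := mul_le_mul_of_nonneg_left this hβ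
  linarith

lemma pf_pos {β μ : ℝ} (hβ : 0 ≤ β) (hμ : 0 ≤ μ) (y : ℝ) : 0 < pf β μ y := by
  unfold pf
  have := den_pos hβ hμ y
  positivity

lemma pf_le_one {β μ : ℝ} (hβ : 0 ≤ β) (hμ : 0 ≤ μ) (y : ℝ) : pf β μ y ≤ 1 := by
  unfold pf
  rw [div_le_one (den_pos hβ hμ y)]
  have : 0 ≤ β * μ := by positivity
  linarith

lemma injective_squeeze {β μ : ℝ} (hβ : 0 ≤ β) (hμ : 0 ≤ μ) (τ : ℝ) :
    Function.Injective (squeeze β μ τ) := by
  intro z z' h
  have hre := congrArg Complex.re h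
  have him := congrArg Complex.im h
  simp only [squeeze] at hre him
  have hy : z.im = z'.im := (strictMono_kf hβ hμ).injective him
  rw [← hy] at hre
  apply Complex.ext _ hy
  have : z.re * pf β μ z.im = z'.re * pf β μ z.im := by linarith
  exact mul_right_cancel₀ (pf_pos hβ hμ z.im).ne' this

lemma abs_kf_le {β μ : ℝ} (hβ : 0 ≤ β) (y : ℝ) : |kf β μ y| ≤ |y| + β * (Real.pi / 2) := by
  unfold kf
  have h1 : |Real.arctan (μ * y)| ≤ Real.pi / 2 :=
    abs_le.mpr ⟨(Real.neg_pi_div_two_lt_arctan _).le, (Real.arctan_lt_pi_div_two _).le⟩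
  calc |y + β * Real.arctan (μ * y)| ≤ |y| + |β * Real.arctan (μ * y)| := abs_add_le _ _
    _ = |y| + β * |Real.arctan (μ * y)| := by rw [abs_mul, abs_of_nonneg hβ]
    _ ≤ |y| + β * (Real.pi / 2) := by
      have := mul_le_mul_of_nonneg_left h1 hβ
      linarith

lemma nsq_squeeze_le {β μ τ : ℝ} (hβ : 0 ≤ β) (hμ : 0 ≤ μ) (hτ : 0 ≤ τ) (z : ℂ) :
    (squeeze β μ τ z).re * (squeeze β μ τ z).re + (squeeze β μ τ z).im * (squeeze β μ τ z).im
      ≤ (|z.re| + τ) ^ 2 + (|z.im| + β * (Real.pi / 2)) ^ 2 := by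
  simp only [squeeze]
  have h1 : |z.re * pf β μ z.im + τ| ≤ |z.re| + τ := by
    calc |z.re * pf β μ z.im + τ| ≤ |z.re * pf β μ z.im| + |τ| := abs_add_le _ _
      _ = |z.re| * pf β μ z.im + τ := by
        rw [abs_mul, abs_of_pos (pf_pos hβ hμ z.im), abs_of_nonneg hτ]
      _ ≤ |z.re| + τ := by
        have := mul_le_mul_of_nonneg_left (pf_le_one hβ hμ z.im) (abs_nonneg z.re)
        linarith
  have h2 := abs_kf_le (μ := μ) hβ z.im
  have e1 : (z.re * pf β μ z.im + τ) * (z.re * pf β μ z.im + τ) = |z.re * pf β μ z.im + τ| ^ 2 := by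
    rw [sq_abs]; ring
  have e2 : kf β μ z.im * kf β μ z.im = |kf β μ z.im| ^ 2 := by
    rw [sq_abs]; ring
  rw [e1, e2]
  gcongr

lemma sq_norm_eq (z : ℂ) : ‖z‖ ^ 2 = z.re * z.re + z.im * z.im := by
  rw [Complex.sq_norm, Complex.normSq_apply]

/-- action-angle chart `w ↦ (π |w|^2, arg w / 2π)` on the slit plane -/
noncomputable def polar (w : ℂ) : ℂ :=
  ⟨Real.pi * (w.re * w.re + w.im * w.im), Complex.arg w / (2 * Real.pi)⟩

/-- inverse chart `(x, y) ↦ sqrt (x / π) exp (2 π i y)` -/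
noncomputable def unpolar (ζ : ℂ) : ℂ :=
  ⟨Real.sqrt (ζ.re / Real.pi) * Real.cos (2 * Real.pi * ζ.im),
    Real.sqrt (ζ.re / Real.pi) * Real.sin (2 * Real.pi * ζ.im)⟩

lemma hasFDerivAt_arg {w : ℂ} (hw : w ∈ Complex.slitPlane) :
    HasFDerivAt Complex.arg (Complex.imCLM.comp (w⁻¹ • (1 : ℂ →L[ℝ] ℂ))) w := by
  have h1 := (Complex.hasDerivAt_log hw).complexToReal_fderiv
  have h2 := Complex.imCLM.hasFDerivAt.comp w h1
  refine h2.congr_of_eventuallyEq (Filter.Eventually.of_forall fun z => ?_)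
  simp [Complex.log_im]

lemma symp2_polar {w : ℂ} (hw : w ∈ Complex.slitPlane) :
    DifferentiableAt ℝ polar w ∧
      ∀ u v, om2 (fderiv ℝ polar w u) (fderiv ℝ polar w v) = om2 u v := by
  have hw0 : w ≠ 0 := Complex.slitPlane_ne_zero hw
  have ht := nsq_pos hw0
  have hpi := Real.pi_pos
  have hre : HasFDerivAt (fun w : ℂ => w.re) Complex.reCLM w := Complex.reCLM.hasFDerivAt
  have him : HasFDerivAt (fun w : ℂ => w.im) Complex.imCLM w := Complex.imCLM.hasFDerivAt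
  have h1 := ((hre.mul hre).add (him.mul him)).const_mul Real.pi
  have h2 := (hasFDerivAt_arg hw).mul_const (2 * Real.pi)⁻¹
  refine symp2_of_re_im (F := polar) h1 (by simpa [polar, div_eq_mul_inv] using h2) ?_
  have hne : w.re ^ 2 + w.im ^ 2 ≠ 0 := by
    have : w.re ^ 2 + w.im ^ 2 = w.re * w.re + w.im * w.im := by ring
    rw [this]; exact ht.ne'
  simp [Complex.inv_re, Complex.inv_im, Complex.normSq_apply]
  field_simp
  ring

lemma contDiffOn_polar : ContDiffOn ℝ ∞ polar Complex.slitPlane := by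
  unfold polar
  apply contDiffOn_mk
  · exact (contDiff_const.mul
      ((contDiff_re.mul contDiff_re).add (contDiff_im.mul contDiff_im))).contDiffOn
  · have : ContDiffOn ℝ ∞ Complex.arg Complex.slitPlane := by
      intro w hw
      have h1 : ContDiffAt ℝ ∞ Complex.log w := (Complex.contDiffAt_log hw).restrict_scalars ℝ
      have h2 : ContDiffAt ℝ ∞ (fun z => (Complex.log z).im) w :=
        Complex.imCLM.contDiff.contDiffAt.comp w h1
      simp only [Complex.log_im] at h2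
      exact h2.contDiffWithinAt
    exact this.div_const _

lemma injOn_polar : Set.InjOn polar Complex.slitPlane := by
  intro w _ w' _ h
  have hpi := Real.pi_pos
  have hre := congrArg Complex.re h
  have him := congrArg Complex.im h
  simp only [polar] at hre him
  apply Complex.ext_norm_arg
  · have h1 : ‖w‖ ^ 2 = ‖w'‖ ^ 2 := by
      rw [Complex.sq_norm, Complex.sq_norm, Complex.normSq_apply, Complex.normSq_apply]
      exact mul_left_cancel₀ hpi.ne' hre
    exact (sq_eq_sq₀ (norm_nonneg _) (norm_nonneg _)).mp h1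
  · field_simp at him
    exact him

lemma polar_re_pos {w : ℂ} (hw : w ∈ Complex.slitPlane) : 0 < (polar w).re := by
  have := nsq_pos (Complex.slitPlane_ne_zero hw)
  have hpi := Real.pi_pos
  simp only [polar]
  positivity

lemma polar_im_abs {w : ℂ} (hw : w ∈ Complex.slitPlane) : |(polar w).im| < 1 / 2 := by
  have hpi := Real.pi_pos
  have h1 := Complex.neg_pi_lt_arg w
  have h2 := lt_of_le_of_ne (Complex.arg_le_pi w) (Complex.mem_slitPlane_iff_arg.mp hw).1
  simp only [polar]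
  rw [abs_lt]
  constructor
  · rw [lt_div_iff₀ (by positivity)]; linarith
  · rw [div_lt_iff₀ (by positivity)]; linarith

lemma symp2_unpolar {ζ : ℂ} (hζ : 0 < ζ.re) :
    DifferentiableAt ℝ unpolar ζ ∧
      ∀ u v, om2 (fderiv ℝ unpolar ζ u) (fderiv ℝ unpolar ζ v) = om2 u v := by
  have hpi := Real.pi_pos
  have hre : HasFDerivAt (fun w : ℂ => w.re) Complex.reCLM ζ := Complex.reCLM.hasFDerivAt
  have him : HasFDerivAt (fun w : ℂ => w.im) Complex.imCLM ζ := Complex.imCLM.hasFDerivAt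
  have hpos : 0 < ζ.re / Real.pi := by positivity
  have hd : HasFDerivAt (fun w : ℂ => w.re / Real.pi) (Real.pi⁻¹ • Complex.reCLM) ζ := by
    simpa [div_eq_mul_inv] using hre.mul_const Real.pi⁻¹
  have hs := hd.sqrt hpos.ne'
  have ha := him.const_mul (2 * Real.pi)
  have h1 := hs.mul ha.cos
  have h2 := hs.mul ha.sin
  refine symp2_of_re_im (F := unpolar) h1 h2 ?_
  have hsq : Real.sqrt (ζ.re / Real.pi) ^ 2 = ζ.re / Real.pi := Real.sq_sqrt hpos.le
  have hspos : 0 < Real.sqrt (ζ.re / Real.pi) := Real.sqrt_pos.mpr hpos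
  have hcs := Real.cos_sq_add_sin_sq (2 * Real.pi * ζ.im)
  simp
  field_simp
  nlinarith

lemma contDiffOn_unpolar : ContDiffOn ℝ ∞ unpolar {ζ | 0 < ζ.re} := by
  have hpi := Real.pi_pos
  have hs : ContDiffOn ℝ ∞ (fun ζ : ℂ => Real.sqrt (ζ.re / Real.pi)) {ζ | 0 < ζ.re} := by
    intro ζ hζ
    have hζ' : 0 < ζ.re := hζ
    apply ContDiffAt.contDiffWithinAt
    apply ContDiffAt.sqrt
    · exact (contDiff_re.div_const _).contDiffAt
    · positivity
  unfold unpolar
  apply contDiffOn_mk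
  · exact hs.mul (Real.contDiff_cos.comp (contDiff_const.mul contDiff_im)).contDiffOn
  · exact hs.mul (Real.contDiff_sin.comp (contDiff_const.mul contDiff_im)).contDiffOn

lemma nsq_unpolar {ζ : ℂ} (hζ : 0 < ζ.re) : Real.pi * ‖unpolar ζ‖ ^ 2 = ζ.re := by
  have hpi := Real.pi_pos
  have hpos : 0 < ζ.re / Real.pi := by positivity
  have hsq : Real.sqrt (ζ.re / Real.pi) ^ 2 = ζ.re / Real.pi := Real.sq_sqrt hpos.le
  have hcs := Real.cos_sq_add_sin_sq (2 * Real.pi * ζ.im)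
  rw [Complex.sq_norm, Complex.normSq_apply]
  simp only [unpolar]
  have : Real.sqrt (ζ.re / Real.pi) * Real.cos (2 * Real.pi * ζ.im) *
        (Real.sqrt (ζ.re / Real.pi) * Real.cos (2 * Real.pi * ζ.im)) +
      Real.sqrt (ζ.re / Real.pi) * Real.sin (2 * Real.pi * ζ.im) *
        (Real.sqrt (ζ.re / Real.pi) * Real.sin (2 * Real.pi * ζ.im))
      = Real.sqrt (ζ.re / Real.pi) ^ 2 *
        (Real.cos (2 * Real.pi * ζ.im) ^ 2 + Real.sin (2 * Real.pi * ζ.im) ^ 2) := by ring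
  rw [this, hcs, hsq]
  field_simp

lemma unpolar_eq {ζ ζ' : ℂ} (hζ : 0 < ζ.re) (hζ' : 0 < ζ'.re) (h : unpolar ζ = unpolar ζ') :
    ζ.re = ζ'.re ∧ ∃ m : ℤ, ζ.im - ζ'.im = m := by
  have hpi := Real.pi_pos
  have hre : ζ.re = ζ'.re := by rw [← nsq_unpolar hζ, ← nsq_unpolar hζ', h]
  refine ⟨hre, ?_⟩
  have hpos : 0 < ζ.re / Real.pi := by positivity
  have hspos : 0 < Real.sqrt (ζ.re / Real.pi) := Real.sqrt_pos.mpr hpos
  have h1 := congrArg Complex.re h
  have h2 := congrArg Complex.im h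
  simp only [unpolar] at h1 h2
  rw [← hre] at h1 h2
  have c1 := mul_left_cancel₀ hspos.ne' h1
  have c2 := mul_left_cancel₀ hspos.ne' h2
  have := Real.Angle.cos_sin_inj c1 c2
  rw [Real.Angle.angle_eq_iff_two_pi_dvd_sub] at this
  obtain ⟨k, hk⟩ := this
  refine ⟨k, ?_⟩
  have : 2 * Real.pi * (ζ.im - ζ'.im) = 2 * Real.pi * k := by linarith
  exact mul_left_cancel₀ (by positivity) this

/-- smooth area preserving map on an open subset of the plane (not necessarily injective) -/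
def Sm2 (ψ : ℂ → ℂ) (U : Set ℂ) : Prop :=
  IsOpen U ∧ ContDiffOn ℝ ∞ ψ U ∧
    ∀ z ∈ U, ∀ u v, om2 (fderiv ℝ ψ z u) (fderiv ℝ ψ z v) = om2 u v

lemma sm2_unpolar : Sm2 unpolar {ζ | 0 < ζ.re} := by
  refine ⟨isOpen_lt continuous_const Complex.continuous_re, contDiffOn_unpolar, ?_⟩
  intro z hz
  exact (symp2_unpolar hz).2

lemma squeeze_mem_slitPlane {β μ τ : ℝ} (hβ : 0 ≤ β) (hμ : 0 ≤ μ) {z : ℂ}
    (hz : |z.re| < τ * (1 + β * μ)) : squeeze β μ τ z ∈ Complex.slitPlane := by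
  rw [Complex.mem_slitPlane_iff]
  by_cases hy : z.im = 0
  · left
    simp only [squeeze]
    rw [hy]
    have hp : pf β μ 0 = 1 / (1 + β * μ) := by simp [pf]
    rw [hp]
    have hpos : 0 < 1 + β * μ := by positivity
    have h1 := (abs_lt.mp hz).1
    have : z.re * (1 / (1 + β * μ)) + τ = (z.re + τ * (1 + β * μ)) / (1 + β * μ) := by
      field_simp
    rw [this]
    apply div_pos _ hpos
    linarith
  · right
    simp only [squeeze]
    intro h
    apply hy
    apply (strictMono_kf hβ hμ).injective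
    rw [h]; simp [kf]

lemma exists_chart {a ε : ℝ} (ha : 0 < a) (hε : 0 < ε) :
    ∃ (χ : ℂ → ℂ) (U : Set ℂ), Sm2 χ U ∧ Set.InjOn χ U ∧ {z : ℂ | Real.pi * ‖z‖ ^ 2 ≤ a} ⊆ U ∧
      ∀ z ∈ U, 0 < (χ z).re ∧ (χ z).re < Real.pi * ‖z‖ ^ 2 + ε ∧ |(χ z).im| < 1 / 2 := by
  have hpi := Real.pi_pos
  have hpi3 := Real.pi_gt_three
  set ρ : ℝ := a + 1 with hρ
  have hρpos : 0 < ρ := by positivity
  set t : ℝ := min 1 (ε / (2 * Real.pi * (4 * ρ + 2))) with ht
  have htpos : 0 < t := by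
    apply lt_min one_pos; positivity
  have ht1 : t ≤ 1 := min_le_left _ _
  have ht2 : t ≤ ε / (2 * Real.pi * (4 * ρ + 2)) := min_le_right _ _
  set β : ℝ := 2 * t / Real.pi with hβdef
  have hβpos : 0 < β := by positivity
  have hβt : β * (Real.pi / 2) = t := by rw [hβdef]; field_simp
  set μ : ℝ := ρ / (t * β) with hμdef
  have hμpos : 0 < μ := by positivity
  have hτμ : t * (1 + β * μ) = t + ρ := by rw [hμdef]; field_simp
  have hne : ∀ z ∈ Metric.ball (0 : ℂ) ρ, squeeze β μ t z ∈ Complex.slitPlane := by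
    intro z hz
    apply squeeze_mem_slitPlane hβpos.le hμpos.le
    rw [hτμ]
    have h1 : |z.re| ≤ ‖z‖ := Complex.abs_re_le_norm z
    have h2 : ‖z‖ < ρ := by simpa using hz
    linarith
  refine ⟨polar ∘ squeeze β μ t, Metric.ball 0 ρ, ⟨Metric.isOpen_ball, ?_, ?_⟩, ?_, ?_, ?_⟩
  · exact contDiffOn_polar.comp (contDiffOn_squeeze hβpos.le hμpos.le t _) hne
  · intro z hz u v
    have h1 := symp2_squeeze hβpos.le hμpos.le t z
    have h2 := symp2_polar (hne z hz)
    rw [fderiv_comp z h2.1 h1.1]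
    simp only [ContinuousLinearMap.comp_apply]
    rw [h2.2, h1.2]
  · exact injOn_polar.comp (injective_squeeze hβpos.le hμpos.le t).injOn hne
  · intro z hz
    simp only [Set.mem_setOf_eq] at hz
    simp only [Metric.mem_ball, dist_zero_right]
    by_contra hcon
    rw [not_lt] at hcon
    have : ρ ^ 2 ≤ ‖z‖ ^ 2 := by gcongr
    nlinarith
  · intro z hz
    have hw := hne z hz
    have hb := nsq_squeeze_le hβpos.le hμpos.le htpos.le z
    rw [hβt] at hb
    refine ⟨polar_re_pos hw, ?_, polar_im_abs hw⟩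
    simp only [Function.comp, polar]
    rw [sq_norm_eq]
    have h1 : |z.re| ≤ ‖z‖ := Complex.abs_re_le_norm z
    have h1' : |z.im| ≤ ‖z‖ := Complex.abs_im_le_norm z
    have h2 : ‖z‖ < ρ := by simpa using hz
    have e1 : (|z.re| + t) ^ 2 + (|z.im| + t) ^ 2
        = z.re * z.re + z.im * z.im + (2 * t * (|z.re| + |z.im|) + 2 * t ^ 2) := by
      have a1 : |z.re| ^ 2 = z.re * z.re := by rw [sq_abs]; ring
      have a2 : |z.im| ^ 2 = z.im * z.im := by rw [sq_abs]; ring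
      nlinarith
    have e2 : 2 * t * (|z.re| + |z.im|) + 2 * t ^ 2 ≤ t * (4 * ρ + 2) := by
      nlinarith
    have e3 : Real.pi * (t * (4 * ρ + 2)) ≤ ε / 2 := by
      have : t * (2 * Real.pi * (4 * ρ + 2)) ≤ ε := by
        rwa [le_div_iff₀ (by positivity)] at ht2
      nlinarith
    have e4 : Real.pi * ((squeeze β μ t z).re * (squeeze β μ t z).re +
        (squeeze β μ t z).im * (squeeze β μ t z).im) ≤
        Real.pi * (z.re * z.re + z.im * z.im) + Real.pi * (t * (4 * ρ + 2)) := by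
      rw [← mul_add]
      apply mul_le_mul_of_nonneg_left _ hpi.le
      linarith
    linarith

end Vale.Agent.Lib.P209
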