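import Mathlib
import Vale.Agent.Lib.P209.Defs
import Vale.Agent.Lib.P209.Planar

/-!
# P209: the layered packing theorem

The ball of capacity `R` is cut into the layers `ρ_j < π |w|^2 < ρ_j + s_j`.  In action-angle
coordinates each layer is cut into `n` simplices, and each of them is the image of the standard
simplex of size `s_j` under a linear map whose transposed inverse maps several disjoint translates
of the unit cube of angles injectively into the torus.
-/

open scoped ContDiff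

namespace Vale.Agent.Lib.P209

/-- smooth map with symplectic derivative on an open subset of `ℂ^n` -/
def SmN {n : ℕ} (φ : (Fin n → ℂ) → (Fin n → ℂ)) (U : Set (Fin n → ℂ)) : Prop :=
  IsOpen U ∧ ContDiffOn ℝ ∞ φ U ∧
    ∀ z ∈ U, ∀ u v, omega (fderiv ℝ φ z u) (fderiv ℝ φ z v) = omega u v

lemma SmN.comp {n : ℕ} {ψ φ : (Fin n → ℂ) → (Fin n → ℂ)} {W U : Set (Fin n → ℂ)}
    (hψ : SmN ψ W) (hφ : SmN φ U) : SmN (ψ ∘ φ) (U ∩ φ ⁻¹' W) := by
  have hopen : IsOpen (U ∩ φ ⁻¹' W) := hφ.2.1.continuousOn.isOpen_inter_preimage hφ.1 hψ.1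
  refine ⟨hopen, hψ.2.1.comp (hφ.2.1.mono Set.inter_subset_left) (fun z hz => hz.2), ?_⟩
  intro z hz u v
  have d1 : DifferentiableAt ℝ φ z :=
    (hφ.2.1.contDiffAt (hφ.1.mem_nhds hz.1)).differentiableAt (by simp)
  have d2 : DifferentiableAt ℝ ψ (φ z) :=
    (hψ.2.1.contDiffAt (hψ.1.mem_nhds hz.2)).differentiableAt (by simp)
  rw [fderiv_comp z d2 d1]
  simp only [ContinuousLinearMap.comp_apply]
  rw [hψ.2.2 _ hz.2, hφ.2.2 _ hz.1]

lemma SmN.prod {n : ℕ} (ψ : Fin n → ℂ → ℂ) (U : Fin n → Set ℂ) (h : ∀ l, Sm2 (ψ l) (U l)) :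
    SmN (fun (z : Fin n → ℂ) l => ψ l (z l)) (Set.univ.pi U) := by
  refine ⟨isOpen_set_pi Set.finite_univ (fun l _ => (h l).1), ?_, ?_⟩
  · rw [contDiffOn_pi]
    intro l
    exact (h l).2.1.comp (contDiff_apply ℝ ℂ l).contDiffOn (fun z hz => hz l (Set.mem_univ l))
  · intro z hz u v
    have hd : ∀ l, HasFDerivAt (fun z : Fin n → ℂ => ψ l (z l))
        ((fderiv ℝ (ψ l) (z l)).comp (ContinuousLinearMap.proj l)) z := by
      intro l
      have h1 : DifferentiableAt ℝ (ψ l) (z l) :=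
        ((h l).2.1.contDiffAt ((h l).1.mem_nhds (hz l (Set.mem_univ l)))).differentiableAt (by simp)
      exact h1.hasFDerivAt.comp z
        (ContinuousLinearMap.proj (R := ℝ) (φ := fun _ : Fin n => ℂ) l).hasFDerivAt
    have hD := hasFDerivAt_pi.mpr hd
    rw [hD.fderiv]
    unfold omega
    apply Finset.sum_congr rfl
    intro l _
    have := (h l).2.2 (z l) (hz l (Set.mem_univ l)) (u l) (v l)
    simpa [om2] using this

lemma SmN.affine {n : ℕ} (ℓ : (Fin n → ℂ) →L[ℝ] (Fin n → ℂ)) (c : Fin n → ℂ)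
    (h : ∀ u v, omega (ℓ u) (ℓ v) = omega u v) : SmN (fun z => ℓ z + c) Set.univ := by
  refine ⟨isOpen_univ, (ℓ.contDiff.add contDiff_const).contDiffOn, ?_⟩
  intro z _ u v
  have : HasFDerivAt (fun z => ℓ z + c) ℓ z := ℓ.hasFDerivAt.add_const c
  rw [this.fderiv]
  exact h u v

/-- the linear part of the frustum map -/
noncomputable def frLin {n : ℕ} (p : Fin n) (κ : Fin n → ℝ) (γ : ℝ) :
    (Fin n → ℂ) →ₗ[ℝ] (Fin n → ℂ) where
  toFun z l := if l = p then ⟨(z p).re - γ * ∑ m ∈ Finset.univ.erase p, (z m).re, (z p).im⟩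
    else ⟨κ l * (z l).re, ((z l).im + γ * (z p).im) / κ l⟩
  map_add' z z' := by
    funext l
    by_cases h : l = p
    · simp only [if_pos h, Pi.add_apply, Complex.add_re, Complex.add_im, Finset.sum_add_distrib]
      apply Complex.ext <;> simp <;> ring
    · simp only [if_neg h, Pi.add_apply, Complex.add_re, Complex.add_im]
      apply Complex.ext <;> simp <;> ring
  map_smul' a z := by
    funext l
    by_cases h : l = p
    · simp only [if_pos h, Pi.smul_apply, Complex.real_smul, Complex.mul_re, Complex.mul_im,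
        Complex.ofReal_re, Complex.ofReal_im, zero_mul, sub_zero, add_zero, RingHom.id_apply,
        ← Finset.mul_sum]
      apply Complex.ext <;> simp <;> ring
    · simp only [if_neg h, Pi.smul_apply, Complex.real_smul, Complex.mul_re, Complex.mul_im,
        Complex.ofReal_re, Complex.ofReal_im, zero_mul, sub_zero, add_zero, RingHom.id_apply]
      apply Complex.ext <;> simp <;> ring

lemma omega_frLin {n : ℕ} (p : Fin n) (κ : Fin n → ℝ) (γ : ℝ) (hκ : ∀ l, κ l ≠ 0)
    (u v : Fin n → ℂ) : omega (frLin p κ γ u) (frLin p κ γ v) = omega u v := by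
  unfold omega
  rw [← Finset.add_sum_erase _ _ (Finset.mem_univ p), ← Finset.add_sum_erase _ _ (Finset.mem_univ p)]
  have h1 : ∀ l ∈ Finset.univ.erase p,
      ((frLin p κ γ u l).re * (frLin p κ γ v l).im - (frLin p κ γ u l).im * (frLin p κ γ v l).re)
      = ((u l).re * (v l).im - (u l).im * (v l).re) +
        (γ * (v p).im * (u l).re - γ * (u p).im * (v l).re) := by
    intro l hl
    have hne : l ≠ p := Finset.ne_of_mem_erase hl
    have hk := hκ l
    simp only [frLin, LinearMap.coe_mk, AddHom.coe_mk, if_neg hne]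
    field_simp
    ring
  have h2 : ∑ l ∈ Finset.univ.erase p, (γ * (v p).im * (u l).re - γ * (u p).im * (v l).re)
      = γ * (v p).im * ∑ l ∈ Finset.univ.erase p, (u l).re
        - γ * (u p).im * ∑ l ∈ Finset.univ.erase p, (v l).re := by
    rw [Finset.sum_sub_distrib, ← Finset.mul_sum, ← Finset.mul_sum]
  rw [Finset.sum_congr rfl h1, Finset.sum_add_distrib, h2]
  simp only [frLin, LinearMap.coe_mk, AddHom.coe_mk, if_true]
  ring

lemma single_le {n : ℕ} (z : Fin n → ℂ) (l : Fin n) : ‖z l‖ ^ 2 ≤ ∑ j, ‖z j‖ ^ 2 :=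
  Finset.single_le_sum (f := fun j => ‖z j‖ ^ 2) (fun j _ => by positivity) (Finset.mem_univ l)

/-- action-angle coordinates of the image point -/
noncomputable def coords {n : ℕ} (p : Fin n) (κ : Fin n → ℝ) (γ ρ : ℝ) (c x y : Fin n → ℝ)
    (l : Fin n) : ℂ :=
  if l = p then ⟨ρ + x p - γ * ∑ m ∈ Finset.univ.erase p, x m, y p⟩
  else ⟨κ l * x l, (y l + γ * y p) / κ l + c l⟩

lemma int_eq_zero_of_abs_lt {m : ℤ} {a : ℝ} (h : a = m) (ha : |a| < 1) : m = 0 := by
  rw [h] at ha
  have : |m| < 1 := by exact_mod_cast ha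
  exact Int.abs_lt_one_iff.mp this

lemma coords_re_pos {n : ℕ} {p : Fin n} {κ : Fin n → ℝ} {γ ρ s : ℝ} {c x y : Fin n → ℝ}
    (hκ : ∀ l, 1 ≤ κ l) (hγ : 0 ≤ γ) (hρ : γ * s ≤ ρ) (hx : ∀ l, 0 < x l) (hs : ∑ l, x l < s)
    (l : Fin n) : 0 < (coords p κ γ ρ c x y l).re := by
  unfold coords
  by_cases h : l = p
  · simp only [if_pos h]
    have e : ∑ l, x l = x p + ∑ m ∈ Finset.univ.erase p, x m :=
      (Finset.add_sum_erase _ _ (Finset.mem_univ p)).symm
    have h1 : ∑ m ∈ Finset.univ.erase p, x m ≤ s := by linarith [hx p]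
    have h2 := mul_le_mul_of_nonneg_left h1 hγ
    linarith [hx p]
  · simp only [if_neg h]
    have := hκ l
    have := hx l
    positivity

/-- injectivity of the action-angle data -/
lemma coords_inj {n : ℕ} {p : Fin n} {κ : Fin n → ℝ} {γ ρ : ℝ} {c x y x' y' : Fin n → ℝ}
    (hκ : ∀ l, 1 ≤ κ l) (hy : ∀ l, |y l| < 1 / 2) (hy' : ∀ l, |y' l| < 1 / 2)
    (hre : ∀ l, (coords p κ γ ρ c x y l).re = (coords p κ γ ρ c x' y' l).re)
    (him : ∀ l, ∃ m : ℤ, (coords p κ γ ρ c x y l).im - (coords p κ γ ρ c x' y' l).im = m) :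
    x = x' ∧ y = y' := by
  have hx : ∀ l, l ≠ p → x l = x' l := by
    intro l hl
    have := hre l
    simp only [coords, if_neg hl] at this
    have hk : κ l ≠ 0 := by have := hκ l; positivity
    exact mul_left_cancel₀ hk this
  have hxp : x p = x' p := by
    have := hre p
    simp only [coords, if_true] at this
    have e : ∑ m ∈ Finset.univ.erase p, x m = ∑ m ∈ Finset.univ.erase p, x' m :=
      Finset.sum_congr rfl (fun m hm => hx m (Finset.ne_of_mem_erase hm))
    rw [e] at this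
    linarith
  have hyp : y p = y' p := by
    obtain ⟨m, hm⟩ := him p
    simp only [coords, if_true] at hm
    have h1 := abs_lt.mp (hy p)
    have h2 := abs_lt.mp (hy' p)
    have := int_eq_zero_of_abs_lt hm (abs_lt.mpr ⟨by linarith, by linarith⟩)
    rw [this] at hm
    simp at hm
    linarith
  have hyl : ∀ l, l ≠ p → y l = y' l := by
    intro l hl
    obtain ⟨m, hm⟩ := him l
    simp only [coords, if_neg hl] at hm
    have hk := hκ l
    have hk0 : κ l ≠ 0 := by positivity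
    rw [hyp] at hm
    have e : (y l + γ * y' p) / κ l + c l - ((y' l + γ * y' p) / κ l + c l)
        = (y l - y' l) / κ l := by field_simp; ring
    rw [e] at hm
    have h1 := abs_lt.mp (hy l)
    have h2 := abs_lt.mp (hy' l)
    have hlt : |(y l - y' l) / κ l| < 1 := by
      rw [abs_div, abs_of_pos (by positivity : 0 < κ l), div_lt_one (by positivity)]
      have : |y l - y' l| < 1 := abs_lt.mpr ⟨by linarith, by linarith⟩
      linarith
    have := int_eq_zero_of_abs_lt hm hlt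
    rw [this] at hm
    simp at hm
    rcases hm with h | h
    · linarith
    · exact absurd h hk0
  constructor
  · funext l
    by_cases h : l = p
    · rw [h]; exact hxp
    · exact hx l h
  · funext l
    by_cases h : l = p
    · rw [h]; exact hyp
    · exact hyl l h

lemma exists_emb {n : ℕ} (p : Fin n) (κ : Fin n → ℝ) (γ ρ s r : ℝ) (c : Fin n → ℝ)
    (hr : 0 < r) (hrs : r < s) (hκ : ∀ l, 1 ≤ κ l) (hγ : 0 ≤ γ) (hρ : γ * s ≤ ρ) :
    ∃ F : (Fin n → ℂ) → (Fin n → ℂ), IsSympEmbOn F (closedBall n r) ∧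
      ∀ z ∈ closedBall n r, ∃ x y : Fin n → ℝ, (∀ l, 0 < x l) ∧ ∑ l, x l < s ∧
        (∀ l, |y l| < 1 / 2) ∧ ∀ l, F z l = unpolar (coords p κ γ ρ c x y l) := by
  have hpi := Real.pi_pos
  have hn : 0 < n := Fin.pos p
  have hnR : (0 : ℝ) < n := by exact_mod_cast hn
  obtain ⟨χ, U₀, hχ, hχinj, hsub, hbd⟩ := exists_chart (a := r) (ε := (s - r) / n) hr
    (div_pos (by linarith) hnR)
  have hκ0 : ∀ l, κ l ≠ 0 := fun l => by have := hκ l; positivity
  set cst : Fin n → ℂ := fun l => if l = p then ⟨ρ, 0⟩ else ⟨0, c l⟩ with hcst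
  set ℓ : (Fin n → ℂ) →L[ℝ] (Fin n → ℂ) := LinearMap.toContinuousLinearMap (frLin p κ γ) with hℓ
  have hℓapp : ∀ ζ, ℓ ζ = frLin p κ γ ζ := fun ζ => rfl
  have g1 : SmN (fun (z : Fin n → ℂ) l => χ (z l)) (Set.univ.pi fun _ => U₀) :=
    SmN.prod (fun _ => χ) (fun _ => U₀) (fun _ => hχ)
  have g2 : SmN (fun ζ => ℓ ζ + cst) Set.univ :=
    SmN.affine ℓ cst (fun u v => by rw [hℓapp, hℓapp]; exact omega_frLin p κ γ hκ0 u v)
  have g3 : SmN (fun (ζ : Fin n → ℂ) l => unpolar (ζ l)) (Set.univ.pi fun _ => {ζ | 0 < ζ.re}) :=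
    SmN.prod (fun _ => unpolar) (fun _ => {ζ | 0 < ζ.re}) (fun _ => sm2_unpolar)
  have g := g3.comp (g2.comp g1)
  -- the middle point in terms of `coords`
  have hmid : ∀ z : Fin n → ℂ, ∀ l, (ℓ (fun l => χ (z l)) + cst) l
      = coords p κ γ ρ c (fun l => (χ (z l)).re) (fun l => (χ (z l)).im) l := by
    intro z l
    rw [Pi.add_apply, hℓapp]
    by_cases h : l = p
    · simp only [frLin, LinearMap.coe_mk, AddHom.coe_mk, coords, hcst, if_pos h]
      apply Complex.ext <;> simp <;> ring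
    · simp only [frLin, LinearMap.coe_mk, AddHom.coe_mk, coords, hcst, if_neg h]
      apply Complex.ext <;> simp
  have hzU : ∀ z ∈ closedBall n r, ∀ l, z l ∈ U₀ := by
    intro z hz l
    have hz' : Real.pi * ∑ j, ‖z j‖ ^ 2 ≤ r := hz
    apply hsub
    have := mul_le_mul_of_nonneg_left (single_le z l) hpi.le
    exact le_trans this hz'
  have hsum : ∀ z ∈ closedBall n r, ∑ l, (χ (z l)).re < s := by
    intro z hz
    have hz' : Real.pi * ∑ j, ‖z j‖ ^ 2 ≤ r := hz
    have h1 : ∑ l, (χ (z l)).re < ∑ l, (Real.pi * ‖z l‖ ^ 2 + (s - r) / n) :=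
      Finset.sum_lt_sum_of_nonempty ⟨p, Finset.mem_univ p⟩
        (fun l _ => (hbd _ (hzU z hz l)).2.1)
    rw [Finset.sum_add_distrib, ← Finset.mul_sum, Finset.sum_const, Finset.card_univ,
      Fintype.card_fin, nsmul_eq_mul] at h1
    have h2 : (n : ℝ) * ((s - r) / n) = s - r := by field_simp
    linarith
  refine ⟨_, ⟨_, g.1, ?_, g.2.1, ?_, g.2.2⟩, ?_⟩
  · -- the closed ball lies in the domain
    intro z hz
    refine ⟨⟨fun l _ => hzU z hz l, Set.mem_univ _⟩, ?_⟩
    intro l _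
    show 0 < ((ℓ (fun l => χ (z l)) + cst) l).re
    rw [hmid]
    exact coords_re_pos hκ hγ hρ (fun l => (hbd _ (hzU z hz l)).1) (hsum z hz) l
  · -- injectivity
    intro z hz z' hz' heq
    have hU : ∀ l, z l ∈ U₀ := fun l => hz.1.1 l (Set.mem_univ l)
    have hU' : ∀ l, z' l ∈ U₀ := fun l => hz'.1.1 l (Set.mem_univ l)
    have hpos : ∀ l, 0 < ((ℓ (fun l => χ (z l)) + cst) l).re := fun l => hz.2 l (Set.mem_univ l)
    have hpos' : ∀ l, 0 < ((ℓ (fun l => χ (z' l)) + cst) l).re :=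
      fun l => hz'.2 l (Set.mem_univ l)
    have hl : ∀ l, unpolar ((ℓ (fun l => χ (z l)) + cst) l)
        = unpolar ((ℓ (fun l => χ (z' l)) + cst) l) := fun l => congrFun heq l
    have key := fun l => unpolar_eq (hpos l) (hpos' l) (hl l)
    simp only [hmid] at key
    obtain ⟨e1, e2⟩ := coords_inj hκ (fun l => (hbd _ (hU l)).2.2) (fun l => (hbd _ (hU' l)).2.2)
      (fun l => (key l).1) (fun l => (key l).2)
    funext l
    apply hχinj (hU l) (hU' l)
    exact Complex.ext (congrFun e1 l) (congrFun e2 l)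
  · intro z hz
    refine ⟨fun l => (χ (z l)).re, fun l => (χ (z l)).im, fun l => (hbd _ (hzU z hz l)).1,
      hsum z hz, fun l => (hbd _ (hzU z hz l)).2.2, fun l => ?_⟩
    show unpolar ((ℓ (fun l => χ (z l)) + cst) l) = _
    rw [hmid]

lemma sums {n : ℕ} (p : Fin n) (γ ρ : ℝ) (x X : Fin n → ℝ) (hx : ∀ l, 0 < x l)
    (hXp : X p = ρ + x p - γ * ∑ m ∈ Finset.univ.erase p, x m)
    (hXl : ∀ l, l ≠ p → X l = (γ + if l < p then 0 else 1) * x l) :
    ∃ A B : ℝ, 0 ≤ A ∧ 0 ≤ B ∧ ∑ l, x l = x p + A + B ∧ ∑ l, X l = ρ + x p + A ∧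
      (∑ l, if p < l then X l else 0) = (γ + 1) * A ∧
      (∑ l, if p ≤ l then X l else 0) = ρ + x p + A - γ * B := by
  classical
  refine ⟨∑ l ∈ Finset.univ.erase p, (if l < p then 0 else x l),
    ∑ l ∈ Finset.univ.erase p, (if l < p then x l else 0), ?_, ?_, ?_, ?_, ?_, ?_⟩
  · apply Finset.sum_nonneg
    intro l _
    split_ifs
    · exact le_rfl
    · exact (hx l).le
  · apply Finset.sum_nonneg
    intro l _
    split_ifs
    · exact (hx l).le
    · exact le_rfl
  all_goals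
    have hAB : ∑ m ∈ Finset.univ.erase p, x m
        = ∑ l ∈ Finset.univ.erase p, (if l < p then 0 else x l)
          + ∑ l ∈ Finset.univ.erase p, (if l < p then x l else 0) := by
      rw [← Finset.sum_add_distrib]
      apply Finset.sum_congr rfl
      intro l _
      split_ifs <;> simp
  · rw [← Finset.add_sum_erase _ _ (Finset.mem_univ p), hAB]; ring
  · rw [← Finset.add_sum_erase _ _ (Finset.mem_univ p), hXp]
    have : ∑ l ∈ Finset.univ.erase p, X l = γ * ∑ m ∈ Finset.univ.erase p, x m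
        + ∑ l ∈ Finset.univ.erase p, (if l < p then 0 else x l) := by
      rw [Finset.mul_sum, ← Finset.sum_add_distrib]
      apply Finset.sum_congr rfl
      intro l hl
      rw [hXl l (Finset.ne_of_mem_erase hl)]
      split_ifs <;> ring
    rw [this]; ring
  · rw [← Finset.add_sum_erase _ _ (Finset.mem_univ p), if_neg (lt_irrefl p), zero_add,
      Finset.mul_sum]
    apply Finset.sum_congr rfl
    intro l hl
    have hne := Finset.ne_of_mem_erase hl
    rw [hXl l hne]
    rcases lt_or_gt_of_ne hne with h | h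
    · rw [if_neg (not_lt.mpr h.le), if_pos h]; ring
    · rw [if_pos h, if_neg (not_lt.mpr h.le), if_neg (not_lt.mpr h.le)]
  · rw [← Finset.add_sum_erase _ _ (Finset.mem_univ p), if_pos (le_refl p), hXp, hAB]
    have : ∑ l ∈ Finset.univ.erase p, (if p ≤ l then X l else 0)
        = (γ + 1) * ∑ l ∈ Finset.univ.erase p, (if l < p then 0 else x l) := by
      rw [Finset.mul_sum]
      apply Finset.sum_congr rfl
      intro l hl
      have hne := Finset.ne_of_mem_erase hl
      rw [hXl l hne]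
      rcases lt_or_gt_of_ne hne with h | h
      · rw [if_neg (not_le.mpr h), if_pos h]; ring
      · rw [if_pos h.le, if_neg (not_lt.mpr h.le), if_neg (not_lt.mpr h.le)]
    rw [this]; ring

lemma angular {κ y y' t : ℝ} {a a' g : ℕ} {m : ℤ} (hne : a ≠ a') (ha : a < g) (ha' : a' < g)
    (hg : (g : ℝ) ≤ κ) (hy : |y| < 1 / 2) (hy' : |y'| < 1 / 2)
    (h : (y + t) / κ + a / κ - ((y' + t) / κ + a' / κ) = m) : False := by
  have hgpos : (0 : ℝ) < g := by
    have : 0 < g := by omega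
    exact_mod_cast this
  have hκ : 0 < κ := lt_of_lt_of_le hgpos hg
  have h1 := abs_lt.mp hy
  have h2 := abs_lt.mp hy'
  have e : y - y' + ((a : ℝ) - a') = m * κ := by
    field_simp at h
    linarith
  have hag : (a : ℝ) + 1 ≤ g := by exact_mod_cast ha
  have hag' : (a' : ℝ) + 1 ≤ g := by exact_mod_cast ha'
  have ha0 : (0 : ℝ) ≤ a := Nat.cast_nonneg a
  have ha0' : (0 : ℝ) ≤ a' := Nat.cast_nonneg a'
  rcases lt_trichotomy m 0 with hm | hm | hm
  · have : (m : ℝ) ≤ -1 := by exact_mod_cast (by omega : m ≤ -1)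
    nlinarith
  · rw [hm] at e
    simp only [Int.cast_zero, zero_mul] at e
    rcases lt_or_gt_of_ne hne with hlt | hlt
    · have : (a : ℝ) + 1 ≤ a' := by exact_mod_cast hlt
      linarith
    · have : (a' : ℝ) + 1 ≤ a := by exact_mod_cast hlt
      linarith
  · have : (1 : ℝ) ≤ m := by exact_mod_cast (by omega : 1 ≤ m)
    nlinarith

lemma label_data {n : ℕ} (hn : 0 < n) (α : Fin n → ℕ) :
    ∃ p : Fin n, (∀ l, α l ≤ α p) ∧ ∀ l, l < p → α l < α p := by
  classical
  have : Nonempty (Fin n) := ⟨⟨0, hn⟩⟩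
  obtain ⟨q, hq⟩ := Finite.exists_max α
  set S : Finset (Fin n) := Finset.univ.filter (fun l => ∀ l', α l' ≤ α l) with hS
  have hne : S.Nonempty := ⟨q, by simp [hS, hq]⟩
  refine ⟨S.min' hne, ?_, ?_⟩
  · have := Finset.min'_mem S hne
    simp only [hS, Finset.mem_filter, Finset.mem_univ, true_and] at this
    exact this
  · intro l hl
    by_contra hcon
    rw [not_lt] at hcon
    have hmem : l ∈ S := by
      simp only [hS, Finset.mem_filter, Finset.mem_univ, true_and]
      intro l'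
      have := Finset.min'_mem S hne
      simp only [hS, Finset.mem_filter, Finset.mem_univ, true_and] at this
      exact le_trans (this l') hcon
    exact absurd (Finset.min'_le S l hmem) (not_le.mpr hl)

/-- the stretching factors -/
noncomputable def kap {n : ℕ} (p : Fin n) (γ : ℝ) (l : Fin n) : ℝ := γ + if l < p then 0 else 1

/-- the points of the piece with label `(p, c)` of the layer `ρ < π |w|^2 < ρ + σ` -/
def InPiece {n : ℕ} (p : Fin n) (γ ρ σ : ℝ) (c : Fin n → ℝ) (w : Fin n → ℂ) : Prop :=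
  ∃ x y : Fin n → ℝ, (∀ l, 0 < x l) ∧ ∑ l, x l < σ ∧ (∀ l, |y l| < 1 / 2) ∧
    ∀ l, w l = unpolar (coords p (kap p γ) γ ρ c x y l)

lemma piece_facts {n : ℕ} {p : Fin n} {γ ρ σ : ℝ} {c : Fin n → ℝ} {w : Fin n → ℂ}
    (hκ : ∀ l, 1 ≤ kap p γ l) (hγ : 0 ≤ γ) (hρ : γ * σ ≤ ρ) (h : InPiece p γ ρ σ c w) :
    ρ < Real.pi * ∑ l, ‖w l‖ ^ 2 ∧ Real.pi * ∑ l, ‖w l‖ ^ 2 < ρ + σ ∧
    (∑ l, if p < l then Real.pi * ‖w l‖ ^ 2 else 0)
      < (γ + 1) * (Real.pi * ∑ l, ‖w l‖ ^ 2 - ρ) ∧
    (0 < γ → (γ + 1) * (Real.pi * ∑ l, ‖w l‖ ^ 2 - ρ)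
      < ∑ l, if p ≤ l then Real.pi * ‖w l‖ ^ 2 else 0) := by
  obtain ⟨x, y, hx, hs, hy, hw⟩ := h
  have hX : ∀ l, Real.pi * ‖w l‖ ^ 2 = (coords p (kap p γ) γ ρ c x y l).re := by
    intro l
    rw [hw l]
    exact nsq_unpolar (coords_re_pos hκ hγ hρ hx hs l)
  obtain ⟨A, B, hA, hB, e1, e2, e3, e4⟩ := sums p γ ρ x
    (fun l => (coords p (kap p γ) γ ρ c x y l).re) hx (by simp [coords])
    (by intro l hl; simp [coords, hl, kap])
  rw [Finset.mul_sum]
  simp only [hX]
  rw [e2, e3, e4]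
  have hxp := hx p
  refine ⟨by linarith, by linarith, by nlinarith, ?_⟩
  intro hγ0
  have : γ * (x p + A + B) < γ * σ := by
    apply mul_lt_mul_of_pos_left _ hγ0
    linarith
  nlinarith

theorem layered (n k : ℕ) (R : ℝ) (r : Fin k → ℝ) (a : Fin k → Fin n → ℕ) (s : ℕ → ℝ)
    (ha : Function.Injective a) (hr : ∀ i, 0 < r i) (hs : ∀ j, 0 < s j) (hanti : Antitone s)
    (hrs : ∀ i, r i < s (Finset.univ.sup (a i)))
    (hR : ∀ i, ∑ t ∈ Finset.range (Finset.univ.sup (a i) + 1), s t ≤ R) :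
    BallPacking n k r R := by
  classical
  have hpi := Real.pi_pos
  rcases Nat.eq_zero_or_pos n with hn | hn
  · subst hn
    refine ⟨fun _ => id, ?_, ?_, ?_⟩
    · intro i
      refine ⟨Set.univ, isOpen_univ, Set.subset_univ _, contDiffOn_id,
        Function.injective_id.injOn, ?_⟩
      intro z _ u v
      simp
    · rintro i _ ⟨z, _, rfl⟩
      have h1 := hR i
      have h2 : s 0 ≤ ∑ t ∈ Finset.range (Finset.univ.sup (a i) + 1), s t :=
        Finset.single_le_sum (f := s) (fun t _ => (hs t).le) (by simp)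
      have h3 := hs 0
      show Real.pi * ∑ j, ‖id z j‖ ^ 2 < R
      simp
      linarith
    · intro i j hij
      exact absurd (ha (Subsingleton.elim (a i) (a j))) hij
  choose p hp1 hp2 using fun i => label_data hn (a i)
  have hsup : ∀ i, Finset.univ.sup (a i) = a i (p i) := fun i =>
    le_antisymm (Finset.sup_le fun l _ => hp1 i l) (Finset.le_sup (f := a i) (Finset.mem_univ _))
  simp only [hsup] at hrs hR
  -- parameters as functions of the layer number
  let ρ : ℕ → ℝ := fun j => ∑ t ∈ Finset.range j, s t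
  let γ : ℕ → ℝ := fun j => ρ j / s j
  have hρ0 : ∀ j, 0 ≤ ρ j := fun j => Finset.sum_nonneg fun t _ => (hs t).le
  have hγσ : ∀ j, γ j * s j = ρ j := fun j => div_mul_cancel₀ _ (hs j).ne'
  have hγJ : ∀ j : ℕ, (j : ℝ) ≤ γ j := by
    intro j
    rw [le_div_iff₀ (hs j)]
    have : ∑ t ∈ Finset.range j, s j ≤ ∑ t ∈ Finset.range j, s t :=
      Finset.sum_le_sum fun t ht => hanti (Finset.mem_range.mp ht).le
    simpa using this
  have hγ0 : ∀ j, 0 ≤ γ j := fun j => le_trans (Nat.cast_nonneg j) (hγJ j)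
  have hκ : ∀ i l, 1 ≤ kap (p i) (γ (a i (p i))) l := by
    intro i l
    unfold kap
    by_cases h : l < p i
    · rw [if_pos h, add_zero]
      have h1 : 1 ≤ a i (p i) := by have := hp2 i l h; omega
      have h2 : (1 : ℝ) ≤ (a i (p i) : ℝ) := by exact_mod_cast h1
      exact le_trans h2 (hγJ _)
    · rw [if_neg h]
      linarith [hγ0 (a i (p i))]
  let c : Fin k → Fin n → ℝ := fun i l => (a i l : ℝ) / kap (p i) (γ (a i (p i))) l
  have hex := fun i => exists_emb (p i) (kap (p i) (γ (a i (p i)))) (γ (a i (p i)))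
    (ρ (a i (p i))) (s (a i (p i))) (r i) (c i) (hr i) (hrs i) (hκ i) (hγ0 _) (hγσ _).le
  choose F hF hFim using hex
  have hpiece : ∀ i, ∀ z ∈ closedBall n (r i),
      InPiece (p i) (γ (a i (p i))) (ρ (a i (p i))) (s (a i (p i))) (c i) (F i z) := hFim
  have hfacts := fun i z hz => piece_facts (hκ i) (hγ0 _) (hγσ _).le (hpiece i z hz)
  have key : ∀ i i', i ≠ i' → ∀ z ∈ closedBall n (r i), ∀ z' ∈ closedBall n (r i'),
      F i z = F i' z' → (a i (p i) < a i' (p i') ∨ (a i (p i) = a i' (p i') ∧ p i < p i') ∨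
        (a i (p i) = a i' (p i') ∧ p i = p i')) → False := by
    intro i i' hne z hz z' hz' heq hcase
    obtain ⟨f1, f2, f3, f4⟩ := hfacts i z hz
    obtain ⟨f1', f2', f3', f4'⟩ := hfacts i' z' hz'
    rw [← heq] at f1' f2' f3' f4'
    rcases hcase with hJ | ⟨hJ, hp⟩ | ⟨hJ, hp⟩
    · have h1 : ρ (a i (p i)) + s (a i (p i)) = ρ (a i (p i) + 1) :=
        (Finset.sum_range_succ s _).symm
      have h2 : ρ (a i (p i) + 1) ≤ ρ (a i' (p i')) :=
        Finset.sum_le_sum_of_subset_of_nonneg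
          (Finset.range_subset_range.mpr hJ) (fun t _ _ => (hs t).le)
      linarith
    · rw [← hJ] at f4'
      have h1 : 1 ≤ a i' (p i') := by have := hp2 i' (p i) hp; omega
      have h2 : (1 : ℝ) ≤ (a i (p i) : ℝ) := by rw [hJ]; exact_mod_cast h1
      have h3 : 0 < γ (a i (p i)) := lt_of_lt_of_le one_pos (le_trans h2 (hγJ _))
      have h4 := f4' h3
      have h5 : (∑ l, if p i' ≤ l then Real.pi * ‖F i z l‖ ^ 2 else 0)
          ≤ ∑ l, if p i < l then Real.pi * ‖F i z l‖ ^ 2 else 0 := by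
        apply Finset.sum_le_sum
        intro l _
        by_cases hl : p i' ≤ l
        · rw [if_pos hl, if_pos (lt_of_lt_of_le hp hl)]
        · rw [if_neg hl]
          split_ifs
          · positivity
          · exact le_rfl
      linarith
    · obtain ⟨l, hl⟩ := Function.ne_iff.mp (fun h => hne (ha h))
      have hlp : l ≠ p i := by
        intro h
        apply hl
        rw [h, hJ, hp]
      obtain ⟨x, y, hx, hsx, hy, hw⟩ := hpiece i z hz
      obtain ⟨x', y', hx', hsx', hy', hw'⟩ := hpiece i' z' hz'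
      rw [← heq, ← hJ, ← hp] at hw'
      rw [← hJ] at hsx'
      have hpos := coords_re_pos (p := p i) (c := c i) (y := y) (hκ i) (hγ0 _) (hγσ _).le hx hsx
      have hpos' := coords_re_pos (p := p i) (c := c i') (y := y') (hκ i) (hγ0 _) (hγσ _).le hx' hsx'
      have E := fun l => unpolar_eq (hpos l) (hpos' l) ((hw l).symm.trans (hw' l))
      have hyp : y (p i) = y' (p i) := by
        obtain ⟨m, hm⟩ := (E (p i)).2
        simp only [coords, if_true] at hm
        have h1 := abs_lt.mp (hy (p i))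
        have h2 := abs_lt.mp (hy' (p i))
        have := int_eq_zero_of_abs_lt hm (abs_lt.mpr ⟨by linarith, by linarith⟩)
        rw [this] at hm
        simp at hm
        linarith
      obtain ⟨m, hm⟩ := (E l).2
      simp only [coords, if_neg hlp] at hm
      have hc' : c i' l = (a i' l : ℝ) / kap (p i) (γ (a i (p i))) l := by
        simp only [c]
        rw [← hJ, ← hp]
      rw [hc', hyp] at hm
      by_cases hlt : l < p i
      · refine angular (g := a i (p i)) hl (hp2 i l hlt) ?_ ?_ (hy l) (hy' l) hm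
        · rw [hJ]; exact hp2 i' l (hp ▸ hlt)
        · unfold kap; rw [if_pos hlt, add_zero]; exact hγJ _
      · refine angular (g := a i (p i) + 1) hl (Nat.lt_succ_of_le (hp1 i l)) ?_ ?_ (hy l) (hy' l) hm
        · rw [hJ]; exact Nat.lt_succ_of_le (hp1 i' l)
        · unfold kap; rw [if_neg hlt]; push_cast; linarith [hγJ (a i (p i))]
  refine ⟨F, hF, ?_, ?_⟩
  · rintro i _ ⟨z, hz, rfl⟩
    have h1 := (hfacts i z hz).2.1
    have h2 : ρ (a i (p i)) + s (a i (p i)) = ∑ t ∈ Finset.range (a i (p i) + 1), s t :=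
      (Finset.sum_range_succ s _).symm
    have h3 := hR i
    show Real.pi * ∑ j, ‖F i z j‖ ^ 2 < R
    linarith
  · intro i i' hne
    rw [Set.disjoint_left]
    rintro _ ⟨z, hz, rfl⟩ ⟨z', hz', heq⟩
    rcases lt_trichotomy (a i (p i)) (a i' (p i')) with hJ | hJ | hJ
    · exact key i i' hne z hz z' hz' heq.symm (Or.inl hJ)
    · rcases lt_trichotomy (p i) (p i') with hp | hp | hp
      · exact key i i' hne z hz z' hz' heq.symm (Or.inr (Or.inl ⟨hJ, hp⟩))
      · exact key i i' hne z hz z' hz' heq.symm (Or.inr (Or.inr ⟨hJ, hp⟩))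
      · exact key i' i hne.symm z' hz' z hz heq (Or.inr (Or.inl ⟨hJ.symm, hp⟩))
    · exact key i' i hne.symm z' hz' z hz heq (Or.inl hJ)

end Vale.Agent.Lib.P209
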